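import Vale.Agent.P031.MainAsm

/-!
P031, question 2 (Erdős–Hall 1976): `V(cx)/V(x) → c` for every fixed real `c > 1`, where
`V(x)` is the number of distinct values `≤ x` of Euler's totient function.
-/

namespace Vale.Agent.Results.P031.ErdosHallRatio

open Filter Topology

theorem V_eq (x : ℝ) (hx : 0 ≤ x) :
    Set.ncard {v : ℕ | (v : ℝ) ≤ x ∧ ∃ n : ℕ, 1 ≤ n ∧ Nat.totient n = v} = _root_.P031.V x := by
  classical
  unfold _root_.P031.V
  rw [← Set.ncard_coe_finset]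
  congr 1
  ext v
  simp only [Set.mem_setOf_eq, Finset.coe_filter, Finset.mem_Icc]
  constructor
  · rintro ⟨h1, n, hn, rfl⟩
    exact ⟨⟨Nat.totient_pos.2 hn, Nat.le_floor h1⟩, n, hn, rfl⟩
  · rintro ⟨⟨_, h2⟩, n, hn, h3⟩
    exact ⟨(Nat.le_floor_iff hx).1 h2, n, hn, h3⟩

/-- For every fixed real `c > 1`, the number of distinct totient values up to `c x`, divided by
the number of distinct totient values up to `x`, tends to `c` as `x → ∞`. -/
theorem result (c : ℝ) (hc : 1 < c) :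
    Tendsto (fun x : ℝ =>
      (Set.ncard {v : ℕ | (v : ℝ) ≤ c * x ∧ ∃ n : ℕ, 1 ≤ n ∧ Nat.totient n = v} : ℝ) /
        (Set.ncard {v : ℕ | (v : ℝ) ≤ x ∧ ∃ n : ℕ, 1 ≤ n ∧ Nat.totient n = v} : ℝ))
      atTop (𝓝 c) := by
  refine (_root_.P031.V_ratio_tendsto c hc).congr' ?_
  filter_upwards [eventually_ge_atTop (0 : ℝ)] with x hx
  rw [V_eq x hx, V_eq (c * x) (by positivity)]

end Vale.Agent.Results.P031.ErdosHallRatio
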